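import Vale.Agent.P286ER5.Tors
import Vale.Agent.P286EO.Defs
import Vale.Agent.P286ER1.Kill

/-!
# The vanishing along a bad closed locus
-/

namespace Vale.Agent.P286ER5

open TensorProduct CategoryTheory Vale.Agent.P286 Vale.Agent.P286.MCx Vale.Agent.P286ER
open Vale.Agent.P286.St Vale.Agent.P286.H847 Vale.Agent.P286EG Vale.Agent.P286EO
open Vale.Agent.P286ET (IsAway)

section

variable {A B : Type} [CommRing A] [CommRing B]

theorem acyc_of_tens {P : MCx A} (h : (P.tens A).Acyclic) : P.Acyclic := by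
  refine (HBij.of_equiv (C := P.tens A) (D := P) (fun i => TensorProduct.lid A (P.X i))
    (fun i j x => ?_) (h.hBij 0)).acyclic fun _ z => zero_smul A z
  change TensorProduct.lid A (P.X j) (LinearMap.lTensor A (P.d i j) x) =
    P.d i j (TensorProduct.lid A (P.X i) x)
  induction x using TensorProduct.induction_on with
  | zero => simp
  | tmul x y => simp
  | add x y hx hy => simp only [map_add, hx, hy]

theorem acyc_assoc {P : MCx A} {M N : Type} [AddCommGroup M] [Module A M] [AddCommGroup N]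
    [Module A N] (h : ((P.tens N).tens M).Acyclic) : (P.tens (M ⊗[A] N)).Acyclic := by
  refine (HBij.of_equiv (C := (P.tens N).tens M) (D := P.tens (M ⊗[A] N))
    (fun i => (TensorProduct.assoc A M N (P.X i)).symm) (fun i j x => ?_) (h.hBij 0)).acyclic
    fun _ z => zero_smul A z
  change (TensorProduct.assoc A M N (P.X j)).symm
      (LinearMap.lTensor M (LinearMap.lTensor N (P.d i j)) x) =
    LinearMap.lTensor (M ⊗[A] N) (P.d i j) ((TensorProduct.assoc A M N (P.X i)).symm x)
  induction x using TensorProduct.induction_on with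
  | zero => simp
  | tmul x y =>
    induction y using TensorProduct.induction_on with
    | zero => simp
    | tmul y z => simp
    | add y z hy hz => simp only [tmul_add, map_add, hy, hz]
  | add x y hx hy => simp only [map_add, hx, hy]

theorem loc_one (M : Type) [AddCommGroup M] [Module A M] :
    IsLocalizedModule (Submonoid.powers (1 : A)) (LinearMap.id : M →ₗ[A] M) :=
  ⟨fun x => (show IsUnit (x : A) from x.2.elim fun n hn => hn ▸ isUnit_one.pow n).map _,
    fun y => ⟨(y, 1), one_smul _ _⟩, fun h => ⟨1, congrArg _ h⟩⟩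

theorem loc_away [Algebra ℂ A] [Algebra ℂ B] [Algebra.Smooth ℂ A] {φ : A →ₐ[ℂ] B} {h : A}
    (hφ : IsAway φ h) {P : MCx A} (hP : ∀ i, Module.Flat A (P.X i))
    (hB : (bcx (φ : A →+* B) P).Acyclic) (M : Type) [AddCommGroup M] [Module A M] :
    ∃ (N : Type) (_ : AddCommGroup N) (_ : Module A N) (u : M →ₗ[A] N),
      IsLocalizedModule (Submonoid.powers h) u ∧ (P.tens N).Acyclic := by
  let _ := (φ : A →+* B).toAlgebra
  have : IsLocalization.Away h B := IsLocalization.Away.mk h hφ.unit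
    (fun y => by
      obtain ⟨m, x, e⟩ := hφ.surj y
      exact ⟨m, x, (mul_comm _ _).trans e⟩)
    fun x x' hx => by
      obtain ⟨m, hm⟩ := hφ.ker (x - x') (by rw [map_sub]; exact sub_eq_zero.2 hx)
      exact ⟨m, by rwa [mul_sub, sub_eq_zero] at hm⟩
  have : Module.Flat A B := IsLocalization.flat B (Submonoid.powers h)
  have h1 : (P.tens B).Acyclic := hB
  refine ⟨B ⊗[A] M, inferInstance, inferInstance, TensorProduct.mk A B M 1, inferInstance,
    acyc_equiv (TensorProduct.comm A M B) (acyc_assoc (P286EG1.kflat A (P.tens B)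
      (fun i => ?_) h1 M))⟩
  have := hP i
  exact inferInstanceAs (Module.Flat A (B ⊗[A] P.X i))

theorem exact_iff (M : AG A) : M.G.Exact ↔ M.mc.Acyclic := by
  constructor
  · rintro h i j _ hi rfl z hz
    obtain ⟨y, hy, e⟩ := h j (M.val j z) (M.val_mem z)
      ((M.val_d rfl z).symm.trans ((congrArg _ hz).trans (map_zero _)))
    obtain rfl : i = j - 1 := by omega
    exact ⟨M.el y hy, M.val_inj ((M.val_d hi _).trans e)⟩
  · intro h m x hx hd
    obtain ⟨y, e⟩ := h (m - 1) m (m + 1) (by ring) rfl (M.el x hx)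
      (M.val_inj ((M.val_d rfl _).trans (hd.trans (map_zero _).symm)))
    exact ⟨M.val _ y, M.val_mem y, (M.val_d (by ring) y).symm.trans (congrArg (M.val m) e)⟩

theorem acyc_left {P : MCx A} {Q : MCx B} {u : AH P Q} (hu : u.Qis) (h : Q.Acyclic) :
    P.Acyclic := fun i j k hi hj z hz =>
  (hu i j k hi hj).1 z hz (h i j k hi hj _ (by rw [← u.comm j k hj, hz, map_zero]))

theorem acyc_right {P : MCx A} {Q : MCx B} {u : AH P Q} (hu : u.Qis) (h : P.Acyclic) :
    Q.Acyclic := fun i j k hi hj z hz => by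
  obtain ⟨x, hx, y, e⟩ := (hu i j k hi hj).2 z hz
  obtain ⟨w, rfl⟩ := h i j k hi hj x hx
  exact ⟨y + u.f i w, by rw [map_add, e, u.comm i j hi, sub_add_cancel]⟩

end

/-- **The vanishing along a bad closed locus.** -/
theorem killc (hG : KILLG) : KILLC := by
  intro T ι θ hT ⟨L⟩ hθ hs hb F hF hU X
  have hF' : GC F := hF
  obtain ⟨P, p, hp, hq⟩ := hF X
  have : IsNoetherianRing (T.R X) := Algebra.FiniteType.isNoetherianRing ℂ _
  let p' : MHom P (ag F X).mc := ⟨fun i => ⟨⟨p i, hp.add i⟩, hp.hom i⟩, fun i j _ x =>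
    (hp.comm i j x).trans (congrFun (dS_eq F X i j) _)⟩
  have hp' : p'.a.Qis := fun i j k hi hj => by
    have h1 := hp.hiso i j k hi hj
    rw [dS_eq, dS_eq] at h1
    exact h1
  refine (exact_iff (ag F X)).2 (acyc_right hp' ?_)
  refine acyc_of_tens (tors _ P hp.flat ∅ (fun 𝔭 h𝔭 _ => ?_) _ fun _ h => h.elim)
  by_cases h : ∀ i, θ i X ∈ 𝔭
  · refine ⟨1, (Ideal.ne_top_iff_one _).1 h𝔭.ne_top, _, _, _, LinearMap.id, loc_one _,
      hG T hT hs _ hF X (Set.range fun i => θ i X)
        (fun 𝔮 h𝔮 h' => hb X 𝔮 h𝔮 fun i => h' ⟨i, rfl⟩) P p hp hq _ ?_⟩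
    rintro _ ⟨i, rfl⟩ x
    obtain ⟨x, rfl⟩ := Submodule.Quotient.mk_surjective _ x
    refine ⟨1, ?_⟩
    rw [pow_one, ← Submodule.Quotient.mk_smul, Submodule.Quotient.mk_eq_zero]
    exact Ideal.mul_mem_right _ _ (h i)
  · push Not at h
    obtain ⟨i, hi⟩ := h
    obtain ⟨u, hu⟩ := hθ i X _ (L.ar X (θ i X))
    exact ⟨θ i X, hi, loc_away (L.away X (θ i X)) hp.flat
      (acyc_left ((GC.db hF' (L.ar X (θ i X))).2 P p' hp.flat hp') ((exact_iff (ag F _)).1
        (hU _ ⟨i, (Units.isUnit_units_mul u _).1 (hu ▸ (L.away X (θ i X)).unit)⟩))) _⟩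

/-- The unconditional form. -/
theorem killc' : KILLC := killc P286ER1.killg

end Vale.Agent.P286ER5
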