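import Vale.Agent.P286ER.IF

/-!
# Devissage for torsion modules
-/

namespace Vale.Agent.P286ER5

open TensorProduct Vale.Agent.P286 Vale.Agent.P286.MCx Vale.Agent.P286ER

variable {A : Type} [CommRing A] {P : MCx A}

theorem acyc_ses (hP : ∀ i, Module.Flat A (P.X i)) {N' N N'' : Type} [AddCommGroup N']
    [Module A N'] [AddCommGroup N] [Module A N] [AddCommGroup N''] [Module A N'']
    (u : N' →ₗ[A] N) (v : N →ₗ[A] N'') (hu : Function.Injective u) (huv : Function.Exact u v)
    (hv : Function.Surjective v) (h' : (P.tens N').Acyclic) (h'' : (P.tens N'').Acyclic) :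
    (P.tens N).Acyclic :=
  ((SES.tens hP u v hu huv hv).hBij (h'.hBij 0) (h''.hBij 0)).acyclic fun _ z => zero_smul A z

theorem comm_tens {N' N : Type} [AddCommGroup N'] [Module A N'] [AddCommGroup N] [Module A N]
    (u : N' →ₗ[A] N) (i j : ℤ) (x : N' ⊗[A] P.X i) :
    LinearMap.rTensor (P.X j) u (LinearMap.lTensor N' (P.d i j) x) =
      LinearMap.lTensor N (P.d i j) (LinearMap.rTensor (P.X i) u x) :=
  LinearMap.congr_fun ((LinearMap.rTensor_comp_lTensor _ u (P.d i j)).trans
    (LinearMap.lTensor_comp_rTensor _ u (P.d i j)).symm) x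

/-- Acyclicity passes from the finitely generated submodules to the module. -/
theorem acyc_of_fg (hP : ∀ i, Module.Flat A (P.X i)) {N : Type} [AddCommGroup N] [Module A N]
    (h : ∀ S : Submodule A N, S.FG → (P.tens S).Acyclic) : (P.tens N).Acyclic := by
  intro i j k hi hj z hz
  obtain ⟨S, hS, w, rfl⟩ := Submodule.exists_fg_le_eq_rTensor_subtype (R := A) (M := P.X j) (N := N) z
  have := hP k
  obtain ⟨y, hy⟩ := h S hS i j k hi hj w
    (Module.Flat.rTensor_preserves_injective_linearMap (M := P.X k) S.subtype S.subtype_injective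
      ((comm_tens S.subtype j k w).trans (hz.trans (map_zero _).symm)))
  exact ⟨LinearMap.rTensor (P.X i) S.subtype y,
    (comm_tens S.subtype i j y).symm.trans (congrArg _ hy)⟩

theorem acyc_quot [IsNoetherianRing A] (hP : ∀ i, Module.Flat A (P.X i)) {I : Set A}
    (H : ∀ p : Ideal A, p.IsPrime → I ⊆ p → ∃ h : A, h ∉ p ∧
      ∃ (N : Type) (_ : AddCommGroup N) (_ : Module A N) (u : (A ⧸ p) →ₗ[A] N),
        IsLocalizedModule (Submonoid.powers h) u ∧ (P.tens N).Acyclic) (J : Ideal A) :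
    (∀ a ∈ I, ∃ n : ℕ, a ^ n ∈ J) → (P.tens (A ⧸ J)).Acyclic := by
  induction J using IsNoetherian.induction with
  | hgt J ih =>
  intro hJ
  have ih' : ∀ J' : Ideal A, J < J' → (P.tens (A ⧸ J')).Acyclic := fun J' h =>
    ih J' h fun a ha => (hJ a ha).imp fun _ hn => h.le hn
  have lt : ∀ a : A, a ∉ J → J < J ⊔ Ideal.span {a} := fun a ha =>
    lt_of_le_of_ne le_sup_left fun h => ha (by
      rw [h]; exact Submodule.mem_sup_right (Ideal.mem_span_singleton_self a))
  by_cases hI : Ideal.IsPrime (J : Ideal A)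
  · obtain ⟨h, hh, N, _, _, u, hu, hN⟩ := H J hI fun a ha => by
      obtain ⟨n, hn⟩ := hJ a ha
      exact hI.mem_of_pow_mem n hn
    obtain ⟨v, h1, h2, h3⟩ := prime_seq J h hh
    refine acyclic_of_localized u hu (hBij_of_mul (θ := h) (SES.tens hP _ v h1 h2 h3)
      (fun i x => ?_) (ih' _ (lt h hh))).1 hN
    rw [LinearMap.rTensor_smul, LinearMap.rTensor_id]
    rfl
  · by_cases hT : J = ⊤
    · subst hT
      have : Subsingleton (A ⧸ (⊤ : Ideal A)) := Ideal.Quotient.subsingleton_iff.2 rfl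
      exact tens_acyclic_of_subsingleton P _
    · rw [Ideal.isPrime_iff] at hI
      push Not at hI
      obtain ⟨a, b, hab, ha, hb⟩ := hI hT
      obtain ⟨J', hJ', u, v, hu, huv, hv⟩ := quot_seq J b
      refine acyc_ses hP u v hu huv hv (ih' J' ?_) (ih' _ (lt b hb))
      refine lt_of_le_of_ne (fun x hx => (hJ' x).2 (Ideal.mul_mem_right _ _ hx)) fun h => ha ?_
      rw [h]
      exact (hJ' a).2 hab

theorem acyc_equiv {N' N : Type} [AddCommGroup N'] [Module A N'] [AddCommGroup N] [Module A N]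
    (e : N' ≃ₗ[A] N) (h : (P.tens N').Acyclic) : (P.tens N).Acyclic :=
  (HBij.of_equiv (C := P.tens N') (D := P.tens N) (fun i => LinearEquiv.rTensor (P.X i) e)
    (fun i j x => comm_tens e.toLinearMap i j x) (h.hBij 0)).acyclic fun _ z => zero_smul A z

/-- **Devissage.** -/
theorem tors : TORS := by
  intro A _ _ P hP I H N _ _ hN
  have key : ∀ (N : Type) [AddCommGroup N] [Module A N] [Module.Finite A N],
      (∀ a ∈ I, ∀ x : N, ∃ n : ℕ, a ^ n • x = 0) → (P.tens N).Acyclic := by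
    intro N _ _ hf
    refine IsNoetherianRing.induction_on_isQuotientEquivQuotientPrime A hf
      (motive := fun N _ _ _ => (∀ a ∈ I, ∀ x : N, ∃ n : ℕ, a ^ n • x = 0) → (P.tens N).Acyclic)
      (fun N _ _ _ _ _ => tens_acyclic_of_subsingleton P N) (fun N _ _ _ p e h => ?_)
      (fun N₁ _ _ _ N₂ _ _ _ N₃ _ _ _ f g hf hg hfg h₁ h₃ h => ?_)
    · refine acyc_equiv e.symm (acyc_quot hP H p.1 fun a ha => ?_)
      obtain ⟨n, hn⟩ := h a ha (e.symm (Submodule.Quotient.mk 1))
      refine ⟨n, ?_⟩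
      rwa [← map_smul, e.symm.map_eq_zero_iff, ← Submodule.Quotient.mk_smul, smul_eq_mul, mul_one,
        Submodule.Quotient.mk_eq_zero] at hn
    · refine acyc_ses hP f g hf hfg hg (h₁ fun a ha x => ?_) (h₃ fun a ha x => ?_)
      · obtain ⟨n, hn⟩ := h a ha (f x)
        exact ⟨n, hf (by rw [map_smul, hn, map_zero])⟩
      · obtain ⟨y, rfl⟩ := hg x
        obtain ⟨n, hn⟩ := h a ha y
        exact ⟨n, by rw [← map_smul, hn, map_zero]⟩
  refine acyc_of_fg hP fun S hS => ?_
  have := Module.Finite.iff_fg.2 hS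
  exact key S fun a ha x => (hN a ha x).imp fun n hn => Subtype.ext hn

end Vale.Agent.P286ER5
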